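import Vale.Agent.P305V.Lift

/-! P305 engine, block C3 (LIFT), part 3: the diameter bound (field `top` of `Cov`), the scale
of an edge, and the lift lemma in existential form. -/

namespace Vale.Agent.P305V

open Finset

variable {α ι : Type*}

/-- a walk can be shortened to length `card * M` -/
theorem Wn.diam {E : α → α → ℕ → Prop} (Vs : Finset α) (M : ℕ)
    (hV : ∀ u v l, E u v l → v ∈ Vs ∧ l ≤ M) {u x : α} {r : ℕ} (h : Wn E u x r) :
    Wn E u x (Vs.card * M) := by
  classical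
  set R : ℕ → Finset α := fun k => (insert u Vs).filter fun y => Wn E u y (k * M) with hR
  have hmono : ∀ k, R k ⊆ R (k + 1) := by
    intro k y hy
    have := mem_filter.1 hy
    exact mem_filter.2 ⟨this.1, this.2.mono (Nat.mul_le_mul_right _ (by omega))⟩
  have hex : ∃ k ≤ Vs.card, R (k + 1) ⊆ R k := by
    by_contra hc
    push Not at hc
    have hg : ∀ k ≤ Vs.card + 1, k + 1 ≤ (R k).card := by
      intro k
      induction k with
      | zero =>
        intro _
        exact card_pos.2 ⟨u, mem_filter.2 ⟨mem_insert_self _ _, Wn.refl _ _⟩⟩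
      | succ k ih =>
        intro hk
        have h1 := ih (by omega)
        have h2 : R k ⊂ R (k + 1) := ⟨hmono k, hc k (by omega)⟩
        have := card_lt_card h2
        omega
    have h1 := hg _ le_rfl
    have h2 : (R (Vs.card + 1)).card ≤ (insert u Vs).card := card_filter_le _ _
    have h3 := card_insert_le u Vs
    omega
  obtain ⟨k, hk, hcl⟩ := hex
  have key : ∀ {y x : α} {r : ℕ}, Wn E y x r → y ∈ R k → x ∈ R k := by
    intro y x r hw
    induction hw with
    | refl => exact id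
    | @step a b c l r he _ ih =>
      intro ha
      refine ih (hcl (mem_filter.2 ⟨mem_insert_of_mem (hV _ _ _ he).1, ?_⟩))
      have := (mem_filter.1 ha).2.trans (Wn.single he (hV _ _ _ he).2)
      rwa [Nat.add_mul, one_mul]
  have := key h (mem_filter.2 ⟨mem_insert_self _ _, Wn.refl _ _⟩)
  exact (mem_filter.1 this).2.mono (Nat.mul_le_mul_right _ hk)

/-- every length between `P 0` and `P D` has a scale -/
theorem exists_scale (P : ℕ → ℕ) {D l : ℕ} (hD : 1 ≤ D) (h0 : P 0 ≤ l) (h1 : l ≤ P D) :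
    ∃ t < D, P t ≤ l ∧ l ≤ P (t + 1) := by
  induction D with
  | zero => omega
  | succ D ih =>
    by_cases h : P D ≤ l
    · exact ⟨D, by omega, h, h1⟩
    · have hD0 : D ≠ 0 := by rintro rfl; exact h h0
      obtain ⟨t, ht, h2⟩ := ih (by omega) (by omega)
      exact ⟨t, by omega, h2⟩

/-- LIFT, existential form. -/
theorem lift {E : α → α → ℕ → Prop} {Vx : α → Prop} {D J : ℕ} {P : ℕ → ℕ} {I : ℕ → Finset ι}
    {mem : ℕ → ι → α → Prop} {V : ℕ → ι → α → ℝ} {φ' : α → ℝ} {τ : ℕ → ι → ι → ℝ} {B : ℕ → ℝ}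
    (h : Cov E Vx D J P I mem) (hv : Vert D I mem V φ' τ B) {Γ : ℝ} (hΓ : 0 ≤ Γ)
    (hB : ∀ s < D, B (s + 1) ≤ Γ * P s) :
    ∃ φ : α → ℝ,
      (∀ u, (∀ s < D, ∀ i ∈ I s, ∀ i' ∈ I (s + 1), mem s i u → mem (s + 1) i' u →
        τ s i i' = 0) → φ u = φ' u) ∧
      ∀ u v l t (g : ℝ), E u v l → t < D → P t ≤ l → l ≤ P (t + 1) →
        (∀ i ∈ I (t + 1), mem (t + 1) i u → mem (t + 1) i v →
          |V (t + 1) i v - V (t + 1) i u - g| ≤ B (t + 1)) →
        |φ v - φ u - g| ≤ (2 * D + 1 + 4 * J * D) * Γ * l :=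
  ⟨liftPot E D P I mem φ' τ, fun _ hb => liftPot_broken hb,
    fun _ _ _ _ _ he ht a b c => liftPot_edge h hv hΓ hB he ht a b c⟩

end Vale.Agent.P305V
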