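import Vale.Agent.P305V.Diam
import Vale.Agent.P305CV.Defs

/-! P305 engine, block C3 (LIFT), part 4: the covers of `P305CV` give a `Cov`. -/

namespace Vale.Agent.P305V

open Finset Vale.Agent.P305CV

/-- the edge relation of an edge list -/
def EG (G : List WE) (a b l : ℕ) : Prop := ∃ e ∈ G, Jn e a b ∧ e.2.2.1 = l

theorem EG.symm {G : List WE} (u v l : ℕ) (h : EG G u v l) : EG G v u l := by
  obtain ⟨e, he, hj, hl⟩ := h
  exact ⟨e, he, hj.symm, hl⟩

theorem wn_of_wk {G : List WE} {a b l : ℕ} (h : Wk G a b l) : Wn (EG G) a b l := by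
  induction h with
  | refl l => exact Wn.refl _ _
  | step _ he hj ih => exact ih.trans (Wn.single ⟨_, he, hj, rfl⟩ le_rfl)

theorem Wk.cons {G : List WE} {a b c l : ℕ} {e : WE} (he : e ∈ G) (hj : Jn e a b)
    (h : Wk G b c l) : Wk G a c (e.2.2.1 + l) := by
  induction h with
  | refl l => exact (Wk.step (Wk.refl 0) he hj).mono (by omega)
  | step _ he' hj' ih => exact (Wk.step ih he' hj').mono (by omega)

theorem wk_of_wn {G : List WE} {a b l : ℕ} (h : Wn (EG G) a b l) : Wk G a b l := by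
  induction h with
  | refl u r => exact Wk.refl _
  | step he _ ih =>
    obtain ⟨e, he, hj, rfl⟩ := he
    exact Wk.cons he hj ih

theorem wn_of_tl {G : List WE} {c : ℕ} {D : ℕ → ℕ} (hc : D c = 0) : ∀ {l : List Rec},
    TL G c D l → ∀ v ∈ Cl.vs (c, l), Wn (EG G) c v (D v)
  | [], _, v, hv => by
    have : v = c := by simpa [Cl.vs] using hv
    subst this
    exact Wn.refl _ _
  | r :: l, ⟨h1, _, h3, h4, h5, h6⟩, v, hv => by
    rcases mem_vs_cons.1 hv with rfl | hv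
    · rw [h6]
      exact (wn_of_tl hc h1 _ h3).trans (Wn.single ⟨_, h4, h5, rfl⟩ le_rfl)
    · exact wn_of_tl hc h1 v hv

/-- two vertices of one cluster are at distance at most twice the radius -/
theorem wn_of_clOK {vs : List ℕ} {G : List WE} {r R : ℕ} {C : Cl} (h : ClOK vs G r R C)
    {u x : ℕ} (hu : u ∈ C.vs) (hx : x ∈ C.vs) : Wn (EG G) u x (2 * R) := by
  obtain ⟨D, h1, h2, h3⟩ := h.tree
  have a := (wn_of_tl h2 h1 u hu).symm EG.symm
  have b := wn_of_tl h2 h1 x hx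
  have := h3 u hu
  have := h3 x hx
  exact (a.trans b).mono (by omega)

/-- The general adaptor: `f s` names the clusters of scale `s` injectively up to multiplicity. -/
theorem cov_of_covOK {ι : Type*} {vs : List ℕ} {G : List WE} {D J M : ℕ} {P r R : ℕ → ℕ}
    {cs : ℕ → List Cl} {I : ℕ → Finset ι} {f : ℕ → ι → Cl}
    (hG : ∀ e ∈ G, e.1 ∈ vs ∧ e.2.1 ∈ vs ∧ e.2.2.1 ≤ M)
    (hc : ∀ s ≤ D, CovOK vs G (r s) (R s) J (cs s))
    (hr : ∀ s, 1 ≤ s → s ≤ D → 2 * P s ≤ r s) (hR : ∀ s < D, 2 * R s ≤ P (s + 1))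
    (hpos : ∀ s, 1 ≤ P s) (hmono : ∀ s, P s ≤ P (s + 1)) (htop : vs.length * M ≤ P D)
    (hin : ∀ s ≤ D, ∀ i ∈ I s, f s i ∈ cs s) (hon : ∀ s ≤ D, ∀ C ∈ cs s, ∃ i ∈ I s, f s i = C)
    (hfew : ∀ s ≤ D, ∀ u (T : Finset ι), T ⊆ I s → (∀ i ∈ T, u ∈ (f s i).vs) →
      T.card ≤ (cs s).countP fun C => u ∈ C.vs) :
    Cov (EG G) (· ∈ vs) D J P I fun s i u => u ∈ (f s i).vs where
  symm := EG.symm
  vx := by
    rintro u v l ⟨e, he, ⟨rfl, -⟩ | ⟨-, rfl⟩, -⟩
    · exact (hG e he).1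
    · exact (hG e he).2.1
  pos := hpos
  mono := hmono
  zero := by
    intro u hu
    obtain ⟨C, hC, h⟩ := (hc 0 (Nat.zero_le _)).cov u hu
    obtain ⟨i, hi, rfl⟩ := hon 0 (Nat.zero_le _) C hC
    exact ⟨i, hi, h u (Wk.refl _)⟩
  pad := by
    intro u hu s h1 h2
    obtain ⟨C, hC, h⟩ := (hc s h2).cov u hu
    obtain ⟨i, hi, rfl⟩ := hon s h2 C hC
    exact ⟨i, hi, fun x hx => h x (wk_of_wn (hx.mono (hr s h1 h2)))⟩
  few := fun s u T _ h2 hT hm => (hfew s h2 u T hT hm).trans ((hc s h2).few u)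
  nest := fun s i u x hs hi hu hx =>
    (wn_of_clOK ((hc s hs.le).cl _ (hin s hs.le i hi)) hu hx).mono (hR s hs)
  top := by
    intro u x q h
    refine (Wn.diam vs.toFinset M ?_ h).mono
      ((Nat.mul_le_mul_right _ (List.toFinset_card_le vs)).trans htop)
    rintro u v l ⟨e, he, ⟨-, rfl⟩ | ⟨rfl, -⟩, rfl⟩
    · exact ⟨List.mem_toFinset.2 (hG e he).2.1, (hG e he).2.2⟩
    · exact ⟨List.mem_toFinset.2 (hG e he).1, (hG e he).2.2⟩

/-- clusters named by themselves -/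
theorem cov_cl [DecidableEq Cl] {vs : List ℕ} {G : List WE} {D J M : ℕ} {P r R : ℕ → ℕ} {cs : ℕ → List Cl}
    (hG : ∀ e ∈ G, e.1 ∈ vs ∧ e.2.1 ∈ vs ∧ e.2.2.1 ≤ M)
    (hc : ∀ s ≤ D, CovOK vs G (r s) (R s) J (cs s))
    (hr : ∀ s, 1 ≤ s → s ≤ D → 2 * P s ≤ r s) (hR : ∀ s < D, 2 * R s ≤ P (s + 1))
    (hpos : ∀ s, 1 ≤ P s) (hmono : ∀ s, P s ≤ P (s + 1)) (htop : vs.length * M ≤ P D) :
    Cov (EG G) (· ∈ vs) D J P (fun s => (cs s).toFinset) fun _ C u => u ∈ Cl.vs C := by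
  refine cov_of_covOK (f := fun _ C => C) hG hc hr hR hpos hmono htop
    (fun s _ i hi => List.mem_toFinset.1 hi) (fun s _ C hC => ⟨C, List.mem_toFinset.2 hC, rfl⟩) ?_
  intro s _ u T hT hm
  rw [List.countP_eq_length_filter]
  refine le_trans (card_le_card fun i hi => ?_) (List.toFinset_card_le _)
  exact List.mem_toFinset.2 (List.mem_filter.2 ⟨List.mem_toFinset.1 (hT hi), by simpa using hm i hi⟩)

theorem card_pos_le_countP {β : Type*} (d : β) (p : β → Bool) : ∀ l : List β,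
    ((range l.length).filter fun i => p (l.getD i d)).card ≤ l.countP p := by
  intro l
  induction l using List.reverseRecOn with
  | nil => simp
  | append_singleton l x ih =>
    rw [List.length_append, List.length_singleton, range_add_one, filter_insert,
      List.countP_append]
    have e : ((range l.length).filter fun i => p ((l ++ [x]).getD i d)) =
        (range l.length).filter fun i => p (l.getD i d) :=
      filter_congr fun i hi => by rw [List.getD_append _ _ _ _ (mem_range.1 hi)]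
    have e2 : (l ++ [x]).getD l.length d = x := by simp [List.getD_eq_getElem?_getD]
    rw [e, e2]
    split_ifs with h
    · refine (card_insert_le _ _).trans ?_
      have : List.countP p [x] = 1 := by simp [h]
      omega
    · omega

/-- clusters named by their position in the list -/
theorem cov_pos {vs : List ℕ} {G : List WE} {D J M : ℕ} {P r R : ℕ → ℕ} {cs : ℕ → List Cl}
    (d : Cl) (hG : ∀ e ∈ G, e.1 ∈ vs ∧ e.2.1 ∈ vs ∧ e.2.2.1 ≤ M)
    (hc : ∀ s ≤ D, CovOK vs G (r s) (R s) J (cs s))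
    (hr : ∀ s, 1 ≤ s → s ≤ D → 2 * P s ≤ r s) (hR : ∀ s < D, 2 * R s ≤ P (s + 1))
    (hpos : ∀ s, 1 ≤ P s) (hmono : ∀ s, P s ≤ P (s + 1)) (htop : vs.length * M ≤ P D) :
    Cov (EG G) (· ∈ vs) D J P (fun s => range (cs s).length)
      fun s i u => u ∈ Cl.vs ((cs s).getD i d) := by
  refine cov_of_covOK (f := fun s i => (cs s).getD i d) hG hc hr hR hpos hmono htop ?_ ?_ ?_
  · intro s _ i hi
    have hi := mem_range.1 hi
    rw [List.getD_eq_getElem _ _ hi]
    exact List.getElem_mem hi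
  · intro s _ C hC
    obtain ⟨i, hi, rfl⟩ := List.getElem_of_mem hC
    exact ⟨i, mem_range.2 hi, List.getD_eq_getElem _ _ hi⟩
  · intro s _ u T hT hm
    refine le_trans (card_le_card fun i hi => ?_)
      (card_pos_le_countP d (fun C => decide (u ∈ Cl.vs C)) (cs s))
    exact mem_filter.2 ⟨hT hi, by simpa using hm i hi⟩

end Vale.Agent.P305V
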