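import Vale.Agent.P305V.Wn

/-! P305 engine, block C3 (LIFT), part 2: the lift lemma.  Potentials seen through the clusters
of a padded cover are averaged into one potential that is consistent on every edge. -/

namespace Vale.Agent.P305V

open Finset

variable {α ι : Type*}

theorem tele (I : ℕ → Finset ι) (p a : ℕ → ι → ℝ) (s0 n : ℕ)
    (hp : ∀ s ≤ s0 + n, ∑ j ∈ I s, p s j = 1) :
    ∑ s ∈ Ico s0 (s0 + n), ∑ j ∈ I s, ∑ j' ∈ I (s + 1),
        p s j * p (s + 1) j' * (a (s + 1) j' - a s j) =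
      ∑ j ∈ I (s0 + n), p (s0 + n) j * a (s0 + n) j - ∑ j ∈ I s0, p s0 j * a s0 j := by
  induction n with
  | zero => simp
  | succ n ih =>
    rw [← Nat.add_assoc, sum_Ico_succ_top (by omega), ih fun s hs => hp s (by omega)]
    have h1 := hp (s0 + n) (by omega)
    have h2 := hp (s0 + n + 1) (by omega)
    have e : ∑ j ∈ I (s0 + n), ∑ j' ∈ I (s0 + n + 1), p (s0 + n) j * p (s0 + n + 1) j' *
          (a (s0 + n + 1) j' - a (s0 + n) j) =
        (∑ j ∈ I (s0 + n), p (s0 + n) j) *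
          (∑ j' ∈ I (s0 + n + 1), p (s0 + n + 1) j' * a (s0 + n + 1) j') -
        (∑ j ∈ I (s0 + n), p (s0 + n) j * a (s0 + n) j) *
          (∑ j' ∈ I (s0 + n + 1), p (s0 + n + 1) j') := by
      rw [sum_mul_sum, sum_mul_sum, ← sum_sub_distrib]
      refine sum_congr rfl fun j _ => ?_
      rw [← sum_sub_distrib]
      exact sum_congr rfl fun j' _ => by ring
    rw [e, h1, h2]
    ring

theorem tele' (I : ℕ → Finset ι) (p a : ℕ → ι → ℝ) {s0 s1 : ℕ} (h : s0 ≤ s1)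
    (hp : ∀ s ≤ s1, ∑ j ∈ I s, p s j = 1) :
    ∑ s ∈ Ico s0 s1, ∑ j ∈ I s, ∑ j' ∈ I (s + 1),
        p s j * p (s + 1) j' * (a (s + 1) j' - a s j) =
      ∑ j ∈ I s1, p s1 j * a s1 j - ∑ j ∈ I s0, p s0 j * a s0 j := by
  obtain ⟨n, rfl⟩ := Nat.exists_eq_add_of_le h
  exact tele I p a s0 n hp

theorem abs_avg_le (S : Finset ι) (p x : ι → ℝ) (b : ℝ) (hp0 : ∀ j, 0 ≤ p j)
    (hp : ∑ j ∈ S, p j = 1) (hx : ∀ j ∈ S, p j ≠ 0 → |x j| ≤ b) :
    |∑ j ∈ S, p j * x j| ≤ b := by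
  refine (abs_sum_le_sum_abs _ _).trans ?_
  calc ∑ j ∈ S, |p j * x j| ≤ ∑ j ∈ S, p j * b := by
        refine sum_le_sum fun j hj => ?_
        rw [abs_mul, abs_of_nonneg (hp0 j)]
        by_cases h : p j = 0
        · simp [h]
        · exact mul_le_mul_of_nonneg_left (hx j hj h) (hp0 j)
    _ = b := by rw [← sum_mul, hp, one_mul]

theorem abs_avg2_le (S S' : Finset ι) (p q : ι → ℝ) (x : ι → ι → ℝ) (b : ℝ) (hp0 : ∀ j, 0 ≤ p j)
    (hq0 : ∀ j, 0 ≤ q j) (hp : ∑ j ∈ S, p j = 1) (hq : ∑ j ∈ S', q j = 1)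
    (hx : ∀ j ∈ S, ∀ j' ∈ S', p j ≠ 0 → q j' ≠ 0 → |x j j'| ≤ b) :
    |∑ j ∈ S, ∑ j' ∈ S', p j * q j' * x j j'| ≤ b := by
  have e : ∑ j ∈ S, ∑ j' ∈ S', p j * q j' * x j j' =
      ∑ j ∈ S, p j * ∑ j' ∈ S', q j' * x j j' := by
    refine sum_congr rfl fun j _ => ?_
    rw [mul_sum]
    exact sum_congr rfl fun j' _ => by ring
  rw [e]
  exact abs_avg_le S p _ b hp0 hp fun j hj h =>
    abs_avg_le S' q _ b hq0 hq fun j' hj' h' => hx j hj j' hj' h h'

theorem sum_pp_diff (S S' : Finset ι) (p q p' q' : ι → ℝ) (hq0 : ∀ j, 0 ≤ q j)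
    (hp0 : ∀ j, 0 ≤ p' j) (hq : ∑ j ∈ S', q j = 1) (hp : ∑ j ∈ S, p' j = 1) :
    ∑ j ∈ S, ∑ j' ∈ S', |p j * q j' - p' j * q' j'| ≤
      ∑ j ∈ S, |p j - p' j| + ∑ j ∈ S', |q j - q' j| := by
  calc _ ≤ ∑ j ∈ S, ∑ j' ∈ S', (|p j - p' j| * q j' + p' j * |q j' - q' j'|) := by
        refine sum_le_sum fun j _ => sum_le_sum fun j' _ => ?_
        have e : p j * q j' - p' j * q' j' = (p j - p' j) * q j' + p' j * (q j' - q' j') := by ring
        rw [e]
        refine (abs_add_le _ _).trans (le_of_eq ?_)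
        rw [abs_mul, abs_mul, abs_of_nonneg (hq0 j'), abs_of_nonneg (hp0 j)]
    _ = _ := by
        simp only [sum_add_distrib, ← mul_sum, ← sum_mul, hq, hp, mul_one, one_mul]

/-- the lifted potential -/
noncomputable def liftPot (E : α → α → ℕ → Prop) (D : ℕ) (P : ℕ → ℕ) (I : ℕ → Finset ι)
    (mem : ℕ → ι → α → Prop) (φ' : α → ℝ) (τ : ℕ → ι → ι → ℝ) (u : α) : ℝ :=
  φ' u + ∑ s ∈ range D, ∑ i ∈ I s, ∑ i' ∈ I (s + 1),
    pw E P I mem s i u * pw E P I mem (s + 1) i' u * τ s i i'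

/-- the consistency hypotheses between consecutive scales: `τ = 0` for a broken cluster (H3),
`τ` = the difference at the centre for an unbroken one (H2) -/
structure Vert (D : ℕ) (I : ℕ → Finset ι) (mem : ℕ → ι → α → Prop) (V : ℕ → ι → α → ℝ)
    (φ' : α → ℝ) (τ : ℕ → ι → ι → ℝ) (B : ℕ → ℝ) : Prop where
  h0 : ∀ i ∈ I 0, ∀ u, mem 0 i u → V 0 i u = φ' u
  ht : ∀ s < D, ∀ i ∈ I s, ∀ i' ∈ I (s + 1), ∀ u, mem s i u → (∀ x, mem s i x → mem (s + 1) i' x) →
    |τ s i i' - (V (s + 1) i' u - V s i u)| ≤ B (s + 1)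

variable {E : α → α → ℕ → Prop} {Vx : α → Prop} {D J : ℕ} {P : ℕ → ℕ} {I : ℕ → Finset ι}
  {mem : ℕ → ι → α → Prop} {V : ℕ → ι → α → ℝ} {φ' : α → ℝ} {τ : ℕ → ι → ι → ℝ} {B : ℕ → ℝ}

theorem eta_le (h : Cov E Vx D J P I mem) (hv : Vert D I mem V φ' τ B) {x y : α}
    {s : ℕ} {i i' : ι} (hs : s < D) (hi : i ∈ I s) (hi' : i' ∈ I (s + 1))
    (h1 : pw E P I mem s i x ≠ 0) (h2 : pw E P I mem (s + 1) i' x ≠ 0) (hy : mem s i y) :
    |τ s i i' - (V (s + 1) i' y - V s i y)| ≤ B (s + 1) :=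
  hv.ht s hs i hi i' hi' y hy fun z hz =>
    Qb_of_pw (by omega) h2 z (h.nest s i x z hs hi (mem_of_pw h1) hz)

/-- a vertex all of whose clusters are broken (or that lies in no cluster) keeps its value -/
theorem liftPot_broken {u : α}
    (hb : ∀ s < D, ∀ i ∈ I s, ∀ i' ∈ I (s + 1), mem s i u → mem (s + 1) i' u → τ s i i' = 0) :
    liftPot E D P I mem φ' τ u = φ' u := by
  unfold liftPot
  rw [add_eq_left]
  refine sum_eq_zero fun s hs => sum_eq_zero fun i hi => sum_eq_zero fun i' hi' => ?_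
  by_cases h1 : pw E P I mem s i u = 0
  · simp [h1]
  by_cases h2 : pw E P I mem (s + 1) i' u = 0
  · simp [h2]
  simp [hb s (mem_range.1 hs) i hi i' hi' (mem_of_pw h1) (mem_of_pw h2)]

/-- THE LIFT LEMMA. -/
theorem liftPot_edge (h : Cov E Vx D J P I mem) (hv : Vert D I mem V φ' τ B) {Γ : ℝ}
    (hΓ : 0 ≤ Γ) (hB : ∀ s < D, B (s + 1) ≤ Γ * P s) {u v : α} {l t : ℕ} {g : ℝ} (he : E u v l)
    (ht : t < D) (hl1 : P t ≤ l) (hl2 : l ≤ P (t + 1))
    (h1 : ∀ i ∈ I (t + 1), mem (t + 1) i u → mem (t + 1) i v →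
      |V (t + 1) i v - V (t + 1) i u - g| ≤ B (t + 1)) :
    |liftPot E D P I mem φ' τ v - liftPot E D P I mem φ' τ u - g| ≤
      (2 * D + 1 + 4 * J * D) * Γ * l := by
  classical
  have hu := h.vx _ _ _ he
  have he' := h.symm _ _ _ he
  have hv' := h.vx _ _ _ he'
  have hD : 1 ≤ D := by omega
  have hPm : Monotone P := monotone_nat_of_le_succ h.mono
  set p : α → ℕ → ι → ℝ := fun x s j => pw E P I mem s j x with hp
  have p0 : ∀ x s j, 0 ≤ p x s j := fun x s j => pw_nonneg s j x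
  have p1 : ∀ x, Vx x → ∀ s ≤ D, ∑ j ∈ I s, p x s j = 1 := fun x hx s hs => h.sum_pw hx hs
  -- error terms
  set lo : α → ℝ := fun x => ∑ s ∈ Ico 0 (t + 1), ∑ j ∈ I s, ∑ j' ∈ I (s + 1),
    p x s j * p x (s + 1) j' * (τ s j j' - (V (s + 1) j' x - V s j x)) with hlo
  set hi : α → ℝ := fun x => ∑ s ∈ Ico (t + 1) D, ∑ j ∈ I s, ∑ j' ∈ I (s + 1),
    p x s j * p x (s + 1) j' * (τ s j j' - (V (s + 1) j' u - V s j u)) with hhi
  have dec : ∀ x, Vx x → liftPot E D P I mem φ' τ x =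
      ∑ j ∈ I (t + 1), p x (t + 1) j * (V (t + 1) j x - V (t + 1) j u) +
        ∑ j ∈ I D, p x D j * V D j u + lo x + hi x := by
    intro x hx
    have a1 := tele' I (p x) (fun s j => V s j x) (Nat.zero_le (t + 1))
      fun s hs => p1 x hx s (by omega)
    have a2 := tele' I (p x) (fun s j => V s j u) (show t + 1 ≤ D by omega) (p1 x hx)
    have a0 : ∑ j ∈ I 0, p x 0 j * V 0 j x = φ' x := by
      calc _ = ∑ j ∈ I 0, p x 0 j * φ' x := by
            refine sum_congr rfl fun j hj => ?_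
            by_cases h0 : p x 0 j = 0
            · simp [h0]
            · rw [hv.h0 j hj x (mem_of_pw h0)]
        _ = _ := by rw [← sum_mul, p1 x hx 0 (Nat.zero_le _), one_mul]
    have s1 : ∑ s ∈ Ico 0 (t + 1), ∑ j ∈ I s, ∑ j' ∈ I (s + 1),
        p x s j * p x (s + 1) j' * τ s j j' = lo x + ∑ s ∈ Ico 0 (t + 1), ∑ j ∈ I s,
        ∑ j' ∈ I (s + 1), p x s j * p x (s + 1) j' * (V (s + 1) j' x - V s j x) := by
      simp only [hlo, ← sum_add_distrib]
      exact sum_congr rfl fun s _ => sum_congr rfl fun j _ => sum_congr rfl fun j' _ => by ring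
    have s2 : ∑ s ∈ Ico (t + 1) D, ∑ j ∈ I s, ∑ j' ∈ I (s + 1),
        p x s j * p x (s + 1) j' * τ s j j' = hi x + ∑ s ∈ Ico (t + 1) D, ∑ j ∈ I s,
        ∑ j' ∈ I (s + 1), p x s j * p x (s + 1) j' * (V (s + 1) j' u - V s j u) := by
      simp only [hhi, ← sum_add_distrib]
      exact sum_congr rfl fun s _ => sum_congr rfl fun j _ => sum_congr rfl fun j' _ => by ring
    have s3 : liftPot E D P I mem φ' τ x = φ' x + (∑ s ∈ Ico 0 (t + 1), ∑ j ∈ I s,
        ∑ j' ∈ I (s + 1), p x s j * p x (s + 1) j' * τ s j j' + ∑ s ∈ Ico (t + 1) D,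
        ∑ j ∈ I s, ∑ j' ∈ I (s + 1), p x s j * p x (s + 1) j' * τ s j j') := by
      rw [sum_Ico_consecutive _ (Nat.zero_le _) (by omega), ← range_eq_Ico]
      rfl
    rw [s3, s1, s2, a1, a2, a0]
    simp only [mul_sub, sum_sub_distrib]
    ring
  have hBl : ∀ s ≤ t, B (s + 1) ≤ Γ * l := by
    intro s hs
    refine (hB s (by omega)).trans (mul_le_mul_of_nonneg_left ?_ hΓ)
    exact_mod_cast (hPm hs).trans hl1
  have hΓl : 0 ≤ Γ * l := by positivity
  have hlo' : ∀ x, Vx x → |lo x| ≤ D * (Γ * l) := by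
    intro x hx
    refine (abs_sum_le_sum_abs _ _).trans ?_
    refine (sum_le_card_nsmul _ _ (Γ * l) fun s hs => ?_).trans ?_
    · have hs' := (mem_Ico.1 hs).2
      refine abs_avg2_le _ _ (p x s) (p x (s + 1)) _ _ (p0 x s) (p0 x (s + 1))
        (p1 x hx s (by omega)) (p1 x hx (s + 1) (by omega)) fun j hj j' hj' a b => ?_
      exact (eta_le h hv (by omega) hj hj' a b (mem_of_pw a)).trans (hBl s (by omega))
    · rw [Nat.card_Ico, nsmul_eq_mul]
      refine mul_le_mul_of_nonneg_right ?_ hΓl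
      exact_mod_cast (by omega)
  -- at the high scales a cluster with positive weight at `v` contains `u`
  have same : ∀ s, t + 1 ≤ s → ∀ j, p v s j ≠ 0 → mem s j u := fun s hs j hj =>
    Qb_of_pw (by omega) hj u (Wn.single he' (hl2.trans (hPm hs)))
  have hhi' : |hi v - hi u| ≤ D * (4 * J * (Γ * l)) := by
    simp only [hhi, ← sum_sub_distrib]
    refine (abs_sum_le_sum_abs _ _).trans ?_
    refine (sum_le_card_nsmul _ _ (4 * J * (Γ * l)) fun s hs => ?_).trans ?_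
    · obtain ⟨hs1, hs2⟩ := mem_Ico.1 hs
      have hPs : (1 : ℝ) ≤ P s := by exact_mod_cast h.pos s
      have hPs' : (P s : ℝ) ≤ P (s + 1) := by exact_mod_cast h.mono s
      have pt : ∀ j ∈ I s, ∀ j' ∈ I (s + 1),
          |p v s j * p v (s + 1) j' * (τ s j j' - (V (s + 1) j' u - V s j u)) -
            p u s j * p u (s + 1) j' * (τ s j j' - (V (s + 1) j' u - V s j u))| ≤
          |p v s j * p v (s + 1) j' - p u s j * p u (s + 1) j'| * (Γ * P s) := by
        intro j hj j' hj'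
        by_cases hz : p u s j * p u (s + 1) j' = 0 ∧ p v s j * p v (s + 1) j' = 0
        · simp [hz.1, hz.2]
        · rw [← sub_mul, abs_mul]
          refine mul_le_mul_of_nonneg_left (le_trans ?_ (hB s hs2)) (abs_nonneg _)
          by_cases hu0 : p u s j * p u (s + 1) j' = 0
          · have hv0 : p v s j * p v (s + 1) j' ≠ 0 := fun h0 => hz ⟨hu0, h0⟩
            exact eta_le h hv hs2 hj hj' (left_ne_zero_of_mul hv0) (right_ne_zero_of_mul hv0)
              (same s hs1 j (left_ne_zero_of_mul hv0))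
          · exact eta_le h hv hs2 hj hj' (left_ne_zero_of_mul hu0) (right_ne_zero_of_mul hu0)
              (mem_of_pw (left_ne_zero_of_mul hu0))
      have l1 := h.lip he (s := s) (by omega) hs2.le (hl2.trans (hPm hs1))
      have l2 := h.lip he (s := s + 1) (by omega) hs2 (hl2.trans (hPm (by omega)))
      have l3 := sum_pp_diff (I s) (I (s + 1)) (p v s) (p v (s + 1)) (p u s) (p u (s + 1))
        (p0 v _) (p0 u _) (p1 v hv' _ hs2) (p1 u hu _ hs2.le)
      set X := ∑ j ∈ I s, |p v s j - p u s j|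
      set Y := ∑ j ∈ I (s + 1), |p v (s + 1) j - p u (s + 1) j|
      have hY : 0 ≤ Y := sum_nonneg fun _ _ => abs_nonneg _
      have l1' : X * P s ≤ 2 * J * l := l1
      have l2' : Y * P s ≤ 2 * J * l := (mul_le_mul_of_nonneg_left hPs' hY).trans l2
      calc _ ≤ ∑ j ∈ I s, ∑ j' ∈ I (s + 1),
            |p v s j * p v (s + 1) j' - p u s j * p u (s + 1) j'| * (Γ * P s) := by
            refine (abs_sum_le_sum_abs _ _).trans (sum_le_sum fun j hj => ?_)
            exact (abs_sum_le_sum_abs _ _).trans (sum_le_sum fun j' hj' => pt j hj j' hj')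
        _ = (∑ j ∈ I s, ∑ j' ∈ I (s + 1),
            |p v s j * p v (s + 1) j' - p u s j * p u (s + 1) j'|) * (Γ * P s) := by
            simp only [sum_mul]
        _ ≤ (X + Y) * (Γ * P s) := mul_le_mul_of_nonneg_right l3 (by positivity)
        _ = Γ * (X * P s + Y * P s) := by ring
        _ ≤ Γ * (4 * J * l) := mul_le_mul_of_nonneg_left (by linarith) hΓ
        _ = 4 * J * (Γ * l) := by ring
    · rw [Nat.card_Ico, nsmul_eq_mul]
      refine mul_le_mul_of_nonneg_right ?_ (by positivity)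
      exact_mod_cast (by omega)
  have hmid : |∑ j ∈ I (t + 1), p v (t + 1) j * (V (t + 1) j v - V (t + 1) j u - g)| ≤ Γ * l := by
    refine abs_avg_le _ (p v (t + 1)) _ _ (p0 v _) (p1 v hv' _ ht) fun j hj a => ?_
    exact (h1 j hj (same (t + 1) le_rfl j a) (mem_of_pw a)).trans (hBl t le_rfl)
  have htop : ∑ j ∈ I D, p v D j * V D j u = ∑ j ∈ I D, p u D j * V D j u :=
    sum_congr rfl fun j _ => by simp only [hp]; rw [h.pw_top hD he j]
  have e : liftPot E D P I mem φ' τ v - liftPot E D P I mem φ' τ u - g =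
      ∑ j ∈ I (t + 1), p v (t + 1) j * (V (t + 1) j v - V (t + 1) j u - g) + (lo v - lo u) +
        (hi v - hi u) := by
    rw [dec v hv', dec u hu, htop]
    have : ∑ j ∈ I (t + 1), p v (t + 1) j * (V (t + 1) j v - V (t + 1) j u - g) =
        ∑ j ∈ I (t + 1), p v (t + 1) j * (V (t + 1) j v - V (t + 1) j u) - g := by
      have e1 := p1 v hv' (t + 1) ht
      calc _ = ∑ j ∈ I (t + 1), (p v (t + 1) j * (V (t + 1) j v - V (t + 1) j u) -
            p v (t + 1) j * g) := sum_congr rfl fun j _ => by ring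
        _ = _ := by rw [sum_sub_distrib, ← sum_mul, e1, one_mul]
    rw [this]
    simp
    ring
  rw [e]
  have b1 := hlo' u hu
  have b2 := hlo' v hv'
  have b3 : |lo v - lo u| ≤ 2 * D * (Γ * l) := by
    refine (abs_sub _ _).trans (by linarith)
  refine (abs_add_three _ _ _).trans ?_
  nlinarith

end Vale.Agent.P305V
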