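import Vale.Agent.P305CV.Bridge
import Vale.Agent.P305U.Defs

/-! P305 engine: from the consistency of the objects of a level to the lifted potential. -/

namespace Vale.Agent.P305V

open Finset Vale.Agent.P305E Vale.Agent.P305CV Vale.Agent.P305W Vale.Agent.P305Q Vale.Agent.P305U

/-- The value of `φ'` seen from the node `a` along the valid prefix of its spoke. -/
noncomputable def Vn (ta hd : ℕ → ℕ) (g : ℕ → ℤ) (ok : ℕ → Prop) (φ' : ℕ → ℝ) (L : LV)
    (a : ℕ) : ℝ := val ta hd g ok φ' (a % L.N) (L.F.wk.get a)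

variable {ta hd len : ℕ → ℕ} {N k J : ℕ} {P R : ℕ → ℕ} {vs : List ℕ} {G : List WE}
  {cs : List (ℕ × Cl)} {L : LV}

theorem mem_lt (hI : In ta hd len N J R vs G cs) {j u : ℕ} (h : Mem cs j u) : u < N := by
  obtain ⟨p, hp, hu⟩ := h
  exact hI.lt u ((hI.cl p (List.mem_of_getElem? hp)).1 u hu)

theorem node_mod {j u : ℕ} (h : u < N) : (j * N + u) % N = u := by
  rw [Nat.mul_add_mod_of_lt h]

theorem node_div {j u : ℕ} (h : u < N) : (j * N + u) / N = j := by
  rw [Nat.add_comm, Nat.add_mul_div_right _ _ (by omega), Nat.div_eq_of_lt h, Nat.zero_add]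

theorem wk_r (hL : LvOK ta hd len N k J P R vs G cs L) (a : ℕ) : L.F.wk.get (L.F.r a) = [] := by
  rw [hL.wk, (hL.r_mem a).2.1, List.map_nil]

theorem mem_ctr (hL : LvOK ta hd len N k J P R vs G cs L) {j u : ℕ} (h : Mem cs j u) :
    Mem cs j (L.ctr.get j) := by
  obtain ⟨p, hp, -⟩ := h
  exact ⟨p, hp, by rw [(hL.info j p hp).2.1]; simp [Cl.vs]⟩

/-- The items of a spoke in an unbroken cluster are valid. -/
theorem wk_ok (hI : In ta hd len N J R vs G cs) (hL : LvOK ta hd len N k J P R vs G cs L)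
    {ok brk : ℕ → Prop}
    (hbad : ∀ e ∈ G, ¬ ok e.2.2.2 →
      (∀ j ∈ L.cls.get e.1, brk j) ∧ ∀ j ∈ L.cls.get e.2.1, brk j)
    {a : ℕ} (hb : ¬ brk (a / N)) : ∀ c ∈ L.F.wk.get a, ok c.1 := by
  intro c hc
  rw [hL.wk] at hc
  obtain ⟨v, hv, rfl⟩ := List.mem_map.1 hc
  obtain ⟨m1, m2, -, m4⟩ := hL.sp_mem a v hv
  rcases hL.fo v with h | ⟨-, -, -, -, -, ⟨e, he, hz⟩, hs, -⟩
  · exact absurd h.1 m4
  by_contra hn
  have h1 := hbad e he (hz ▸ hn)
  have h2 := (hL.cls _ _).2 ((hL.mem v).1 m1)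
  rw [m2, ← hs, P305W.src, ← hz] at h2
  have h3 := hI.it e he
  split_ifs at h2
  · exact hb (h1.1 _ (h3.1 ▸ h2))
  · exact hb (h1.2 _ (h3.2.1 ▸ h2))

/-- PRELIFT. -/
theorem prelift {b D Lm : ℕ} (hI : In ta hd len N J R vs G cs)
    (hL : LvOK ta hd len N k J P R vs G cs L) (hP : ∀ s ≤ D, P s = PS b s)
    (hM : MCov b D G vs cs) (hLm : ∀ e ∈ G, 1 ≤ e.2.2.1 ∧ e.2.2.1 ≤ Lm)
    (hD : vs.length * Lm ≤ PS b D) (hD1 : 1 ≤ D) {g : ℕ → ℤ} {ok brk : ℕ → Prop} {φ' : ℕ → ℝ}
    {Bd : ℕ → ℝ} {Γ : ℝ} (hΓ : 0 ≤ Γ) (hB : ∀ s < D, Bd (s + 1) ≤ Γ * PS b s)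
    (hbad : ∀ e ∈ G, ¬ ok e.2.2.2 →
      (∀ j ∈ L.cls.get e.1, brk j) ∧ ∀ j ∈ L.cls.get e.2.1, brk j)
    (hOb : ∀ o ∈ L.obs, (∀ c ∈ o.eo.toList ++ L.F.wk.get o.z, ok c.1) →
      |Vn ta hd g ok φ' L o.y - Vn ta hd g ok φ' L o.x -
        (ssum g (o.eo.toList ++ L.F.wk.get o.z) : ℤ)| ≤ Bd o.sc)
    (hOa : ∀ o ∈ L.obs, ∀ j, o.tr = some j → brk j →
      |Vn ta hd g ok φ' L o.z - Vn ta hd g ok φ' L o.x| ≤ Bd o.sc) :
    ∃ φ : ℕ → ℝ,
      (∀ e ∈ G, ok e.2.2.2 →
        P305W.Con ta hd len g ((2 * D + 1 + 4 * (b + 1) * D) * Γ) φ e.2.2.2) ∧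
      ∀ u, (∀ j ∈ L.cls.get u, brk j) → φ u = φ' u := by
  classical
  have hN := hL.N_eq
  have hC := hM.cov (fun e he => (hLm e he).2) hD (sc := L.sc.get) (mem := Mem cs) fun j hj =>
    ⟨(hL.info j _ (List.getElem?_eq_getElem hj)).1, fun u =>
      ⟨fun ⟨p, hp, hu⟩ => by
        rw [List.getElem?_eq_getElem hj, Option.some.injEq] at hp
        exact hp ▸ hu, fun hu => ⟨_, List.getElem?_eq_getElem hj, hu⟩⟩⟩
  set V := Vn ta hd g ok φ' L with hV
  have hv : Vert D (fun s => (range cs.length).filter fun j => L.sc.get j = s)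
      (fun _ j u => Mem cs j u) (fun _ j u => V (j * N + u)) φ'
      (fun _ j j' => if L.hv.get j = true ∨ brk j then 0 else
        V (j' * N + L.ctr.get j) - φ' (L.ctr.get j)) Bd := by
    constructor
    · intro j hj u hu
      have hlt := mem_lt hI hu
      have hw : L.F.wk.get (j * N + u) = [] := by
        rcases hL.fo (j * N + u) with h | ⟨h1, -, -, h4, h5, -⟩
        · rw [hL.wk, h.1, List.map_nil]
        · exfalso
          have h6 := (hL.mem _).1 h4
          rw [h5, node_div hlt] at h6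
          obtain ⟨p, hp, hu⟩ := hu
          obtain ⟨p', hp', hu'⟩ := h6
          obtain rfl : p = p' := Option.some.inj (hp.symm.trans hp')
          have h7 := hM.sing p (List.mem_of_getElem? hp)
            ((hL.info j p hp).1.symm.trans (mem_filter.1 hj).2)
          simp only [Cl.vs, h7, List.map_nil, List.mem_singleton] at hu hu'
          have h8 : L.F.par.get (j * N + u) = j * N + u := by
            rw [← Nat.div_add_mod (L.F.par.get (j * N + u)) N, h5, hu', node_div hlt, ← hu,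
              Nat.mul_comm]
          rw [h8] at h1
          simpa using congrArg List.length h1
      simp only [hV, Vn, hw, P305W.val, hN, node_mod hlt]
    · intro s hs j hj j' hj' u hu hsub
      have e1 := (mem_filter.1 hj).2
      have e2 := (mem_filter.1 hj').2
      have hlt := mem_lt hI hu
      have pr : PrC cs L u j j' := ⟨hu, hsub u hu, hsub _ (mem_ctr hL hu), by rw [e1, e2]⟩
      by_cases hh : L.hv.get j = true
      · have ho := (hL.obs _).2 (Or.inr (Or.inl ⟨u, j, j', pr, hh, hL.hv_sub j j' hsub hh, rfl⟩))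
        have := hOb _ ho (by simp [lam, wk_r hL])
        simp only [lam, wk_r hL, Option.toList_none, List.append_nil, ssum_nil, Int.cast_zero,
          sub_zero, hN, e2] at this
        rw [if_pos (Or.inl hh), zero_sub, abs_neg]
        exact this
      have hf : L.hv.get j = false := by simpa using hh
      have ho := (hL.obs _).2 (Or.inr (Or.inr ⟨u, j, j', pr, hf, rfl⟩))
      by_cases hb : brk j
      · have := hOa _ ho j rfl hb
        simp only [mu, hN, e2] at this
        rw [if_pos (Or.inr hb), zero_sub, neg_sub]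
        exact this
      · have hok := wk_ok hI hL hbad (a := j * N + u) (by rwa [node_div hlt])
        have := hOb _ ho (by simpa [mu, hN] using fun a c h => hok (a, c) h)
        simp only [mu, hN, e2, Option.toList_none, List.nil_append] at this
        have hm : L.mem.get (j * N + u) = true := by
          rw [hL.mem, node_div hlt, node_mod hlt]; exact hu
        have hl := hL.light _ hm (by rwa [node_div hlt])
        have hw := hL.walk (j * N + u)
        rw [hl, node_div hlt] at hw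
        have hval : V (j * N + u) = φ' (L.ctr.get j) - (ssum g (L.F.wk.get (j * N + u)) : ℤ) := by
          simp only [hV, Vn, hN]
          exact val_ok hw hok
        rw [if_neg (by simp [hf, hb]), hval]
        refine le_trans (le_of_eq ?_) this
        congr 1
        ring
  obtain ⟨φ, h1, h2⟩ := lift hC hv hΓ hB
  refine ⟨φ, fun e he hok => ?_, fun u hu => h1 u fun s _ j _ j' _ hm _ =>
    if_pos (Or.inr (hu j ((hL.cls u j).2 hm)))⟩
  obtain ⟨l1, l2⟩ := hLm e he
  have hvs : 1 ≤ vs.length := List.length_pos_of_mem (hI.ed e he).1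
  obtain ⟨t, ht, t1, t2⟩ := exists_scale (PS b) hD1 (l := e.2.2.1) (by simpa [PS] using l1)
    (l2.trans ((Nat.le_mul_of_pos_left _ hvs).trans hD))
  obtain ⟨i1, i2, i3⟩ := hI.it e he
  have := h2 e.1 e.2.1 e.2.2.1 t (g e.2.2.2) ⟨e, he, Or.inl ⟨rfl, rfl⟩, rfl⟩ ht t1 t2
    fun j hj a1 a2 => by
      have e1 := (mem_filter.1 hj).2
      have ho := (hL.obs _).2 (Or.inl ⟨e, he, j, ⟨a1, a2, by omega, by
        rw [e1, Nat.add_sub_cancel, hP t ht.le]; exact t1, by
        rw [e1, hP _ ht]; exact t2⟩, rfl⟩)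
      have := hOb _ ho (by simpa [kap, wk_r hL] using hok)
      simpa [kap, wk_r hL, hN, e1] using this
  rw [P305W.Con, i1, i2, i3]
  refine this.trans (le_of_eq ?_)
  push_cast
  ring

end Vale.Agent.P305V
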