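import Mathlib

/-! P305 engine, block C3 (LIFT), part 1: walks of bounded length, padded covers and the
Lipschitz partition of unity of a cover. Pure mathematics. -/

namespace Vale.Agent.P305V

open Finset

variable {α ι : Type*}

/-- `Wn E u x r`: there is a walk from `u` to `x` of total length at most `r`. -/
inductive Wn (E : α → α → ℕ → Prop) : α → α → ℕ → Prop
  | refl (u : α) (r : ℕ) : Wn E u u r
  | step {u v x : α} {l r : ℕ} : E u v l → Wn E v x r → Wn E u x (l + r)

theorem Wn.mono {E : α → α → ℕ → Prop} {u x : α} {r r' : ℕ} (h : Wn E u x r) (hr : r ≤ r') :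
    Wn E u x r' := by
  induction h generalizing r' with
  | refl u r => exact Wn.refl u r'
  | @step u v x l r he _ ih =>
    have : r' = l + (r' - l) := by omega
    rw [this]
    exact Wn.step he (ih (by omega))

theorem Wn.single {E : α → α → ℕ → Prop} {u v : α} {l r : ℕ} (h : E u v l) (hr : l ≤ r) :
    Wn E u v r :=
  (Wn.step h (Wn.refl v 0)).mono (by omega)

theorem Wn.trans {E : α → α → ℕ → Prop} {u v x : α} {r r' : ℕ} (h : Wn E u v r)
    (h' : Wn E v x r') : Wn E u x (r + r') := by
  induction h with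
  | refl u r => exact h'.mono (by omega)
  | @step u w v l r he _ ih =>
    rw [Nat.add_assoc]
    exact Wn.step he (ih h')

theorem Wn.symm {E : α → α → ℕ → Prop} (hs : ∀ u v l, E u v l → E v u l) {u x : α} {r : ℕ}
    (h : Wn E u x r) : Wn E x u r := by
  induction h with
  | refl u r => exact Wn.refl u r
  | @step u v x l r he _ ih =>
    exact (ih.trans (Wn.single (hs _ _ _ he) le_rfl)).mono (by omega)

/-- A family of padded covers.  Scale `s ≤ D`, clusters `i ∈ I s`; `mem s i u` says that `u` lies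
in the cluster `i` of scale `s`. -/
structure Cov (E : α → α → ℕ → Prop) (Vx : α → Prop) (D J : ℕ) (P : ℕ → ℕ)
    (I : ℕ → Finset ι) (mem : ℕ → ι → α → Prop) : Prop where
  symm : ∀ u v l, E u v l → E v u l
  vx : ∀ u v l, E u v l → Vx u
  pos : ∀ s, 1 ≤ P s
  mono : ∀ s, P s ≤ P (s + 1)
  zero : ∀ u, Vx u → ∃ i ∈ I 0, mem 0 i u
  pad : ∀ u, Vx u → ∀ s, 1 ≤ s → s ≤ D → ∃ i ∈ I s, ∀ x, Wn E u x (2 * P s) → mem s i x
  few : ∀ s u (T : Finset ι), 1 ≤ s → s ≤ D → T ⊆ I s → (∀ i ∈ T, mem s i u) → T.card ≤ J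
  nest : ∀ s i u x, s < D → i ∈ I s → mem s i u → mem s i x → Wn E u x (P (s + 1))
  top : ∀ u x r, Wn E u x r → Wn E u x (P D)

section Weights

variable (E : α → α → ℕ → Prop) (P : ℕ → ℕ) (I : ℕ → Finset ι) (mem : ℕ → ι → α → Prop)

/-- the ball of radius `r` round `u` lies in the cluster `i` of scale `s` -/
def Qb (s : ℕ) (i : ι) (u : α) (r : ℕ) : Prop := ∀ x, Wn E u x r → mem s i x

open Classical in
noncomputable def wt (s : ℕ) (i : ι) (u : α) : ℕ :=
  if s = 0 then (if mem 0 i u then 1 else 0)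
  else ((Ioc (P s) (2 * P s)).filter (Qb E mem s i u)).card

noncomputable def wsum (s : ℕ) (u : α) : ℕ := ∑ i ∈ I s, wt E P mem s i u

/-- the partition of unity -/
noncomputable def pw (s : ℕ) (i : ι) (u : α) : ℝ := (wt E P mem s i u : ℝ) / wsum E P I mem s u

variable {E P I mem}

theorem Qb.anti {s : ℕ} {i : ι} {u : α} {r r' : ℕ} (h : Qb E mem s i u r) (hr : r' ≤ r) :
    Qb E mem s i u r' := fun x hx => h x (hx.mono hr)

theorem Qb.edge {s : ℕ} {i : ι} {u v : α} {l r : ℕ} (he : E u v l)
    (h : Qb E mem s i u (l + r)) : Qb E mem s i v r := fun x hx => h x (Wn.step he hx)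

theorem wt_le_edge {s : ℕ} (hs : 1 ≤ s) {i : ι} {u v : α} {l : ℕ} (he : E u v l) :
    wt E P mem s i u ≤ wt E P mem s i v + l := by
  classical
  unfold wt
  rw [if_neg (by omega), if_neg (by omega)]
  set A := (Ioc (P s) (2 * P s)).filter (Qb E mem s i u)
  have h1 : A ⊆ (A.filter fun r => P s + l < r) ∪ Ioc (P s) (P s + l) := by
    intro r hr
    have := (mem_Ioc.1 (mem_filter.1 hr).1).1
    by_cases h : P s + l < r
    · exact mem_union_left _ (mem_filter.2 ⟨hr, h⟩)
    · exact mem_union_right _ (mem_Ioc.2 ⟨this, by omega⟩)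
  have h2 : (A.filter fun r => P s + l < r).card ≤
      ((Ioc (P s) (2 * P s)).filter (Qb E mem s i v)).card := by
    apply card_le_card_of_injOn (fun r => r - l)
    · intro r hr
      have hr' := mem_filter.1 (mem_coe.1 hr)
      have hA := mem_filter.1 hr'.1
      have hI := mem_Ioc.1 hA.1
      show r - l ∈ _
      refine mem_coe.2 (mem_filter.2 ⟨mem_Ioc.2 ⟨by omega, by omega⟩, ?_⟩)
      refine Qb.edge he ?_
      have : l + (r - l) = r := by omega
      rw [this]; exact hA.2
    · intro a ha b hb hab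
      have ha' := (mem_filter.1 (mem_coe.1 ha)).2
      have hb' := (mem_filter.1 (mem_coe.1 hb)).2
      simp only at hab
      omega
  have h3 := (card_le_card h1).trans (card_union_le _ _)
  rw [Nat.card_Ioc] at h3
  omega

theorem pw_nonneg (s : ℕ) (i : ι) (u : α) : 0 ≤ pw E P I mem s i u := by
  unfold pw; positivity

theorem Qb_of_wt {s : ℕ} {i : ι} {u : α} (hs : 1 ≤ s) (h : wt E P mem s i u ≠ 0) :
    Qb E mem s i u (P s) := by
  classical
  unfold wt at h
  rw [if_neg (by omega)] at h
  obtain ⟨r, hr⟩ := card_ne_zero.1 h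
  have hr' := mem_filter.1 hr
  exact hr'.2.anti (mem_Ioc.1 hr'.1).1.le

theorem wt_ne_of_pw {s : ℕ} {i : ι} {u : α} (h : pw E P I mem s i u ≠ 0) :
    wt E P mem s i u ≠ 0 := by
  intro h0; simp [pw, h0] at h

theorem Qb_of_pw {s : ℕ} {i : ι} {u : α} (hs : 1 ≤ s) (h : pw E P I mem s i u ≠ 0) :
    Qb E mem s i u (P s) := Qb_of_wt hs (wt_ne_of_pw h)

theorem mem_of_pw {s : ℕ} {i : ι} {u : α} (hp : pw E P I mem s i u ≠ 0) : mem s i u := by
  classical
  by_cases hs : s = 0
  · subst hs
    have := wt_ne_of_pw hp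
    by_contra hm
    simp [wt, hm] at this
  · exact Qb_of_pw (by omega) hp u (Wn.refl _ _)

variable {Vx : α → Prop} {D J : ℕ}

theorem Cov.wsum_ge (h : Cov E Vx D J P I mem) {u : α} (hu : Vx u) {s : ℕ} (hs : 1 ≤ s)
    (hD : s ≤ D) : P s ≤ wsum E P I mem s u := by
  classical
  obtain ⟨i, hi, hc⟩ := h.pad u hu s hs hD
  have h1 : wt E P mem s i u = P s := by
    unfold wt
    rw [if_neg (by omega), filter_true_of_mem, Nat.card_Ioc]
    · omega
    · intro r hr
      exact Qb.anti hc (mem_Ioc.1 hr).2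
  rw [← h1]
  exact single_le_sum (f := fun i => wt E P mem s i u) (fun _ _ => Nat.zero_le _) hi

theorem Cov.sum_pw (h : Cov E Vx D J P I mem) {u : α} (hu : Vx u) {s : ℕ} (hD : s ≤ D) :
    ∑ i ∈ I s, pw E P I mem s i u = 1 := by
  classical
  have h3 : 0 < wsum E P I mem s u := by
    by_cases hs : s = 0
    · subst hs
      obtain ⟨i, hi, hm⟩ := h.zero u hu
      have h1 : wt E P mem 0 i u = 1 := by simp [wt, hm]
      have := single_le_sum (f := fun i => wt E P mem 0 i u) (fun _ _ => Nat.zero_le _) hi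
      exact lt_of_lt_of_le (by omega) this
    · have h1 := h.wsum_ge hu (s := s) (by omega) hD
      have h2 := h.pos s
      omega
  have h4 : (0 : ℝ) < wsum E P I mem s u := by exact_mod_cast h3
  simp only [pw]
  rw [← sum_div, div_eq_one_iff_eq h4.ne']
  simp [wsum]

/-- the partition of unity is Lipschitz -/
theorem Cov.lip (h : Cov E Vx D J P I mem) {u v : α} {l : ℕ} (he : E u v l) {s : ℕ} (hs : 1 ≤ s)
    (hD : s ≤ D) (hl : l ≤ P s) :
    (∑ i ∈ I s, |pw E P I mem s i v - pw E P I mem s i u|) * P s ≤ 2 * J * l := by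
  classical
  have hu := h.vx _ _ _ he
  have he' := h.symm _ _ _ he
  have hv := h.vx _ _ _ he'
  have hP : (1 : ℝ) ≤ P s := by exact_mod_cast h.pos s
  have hWu : (P s : ℝ) ≤ wsum E P I mem s u := by exact_mod_cast h.wsum_ge hu hs hD
  have hWv : (P s : ℝ) ≤ wsum E P I mem s v := by exact_mod_cast h.wsum_ge hv hs hD
  set a : ι → ℝ := fun i => (wt E P mem s i u : ℝ)
  set b : ι → ℝ := fun i => (wt E P mem s i v : ℝ)
  set A : ℝ := (wsum E P I mem s u : ℝ)
  set B : ℝ := (wsum E P I mem s v : ℝ)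
  have hA : A = ∑ i ∈ I s, a i := by simp [A, a, wsum]
  have hB : B = ∑ i ∈ I s, b i := by simp [B, b, wsum]
  have hab : ∀ i, |b i - a i| ≤ l := by
    intro i
    have h1 : a i ≤ b i + l := by
      simp only [a, b]; exact_mod_cast wt_le_edge (mem := mem) hs he
    have h2 : b i ≤ a i + l := by
      simp only [a, b]; exact_mod_cast wt_le_edge (mem := mem) hs he'
    rw [abs_le]; constructor <;> linarith
  have hs1 : ∑ i ∈ I s, |b i - a i| ≤ J * l := by
    rw [← sum_filter_add_sum_filter_not (I s) (fun i => mem s i u)]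
    have z : ∑ i ∈ (I s).filter (fun i => ¬ mem s i u), |b i - a i| = 0 := by
      refine sum_eq_zero fun i hi => ?_
      have hm := (mem_filter.1 hi).2
      have h1 : wt E P mem s i u = 0 := by
        by_contra h0; exact hm (Qb_of_wt hs h0 u (Wn.refl _ _))
      have h2 : wt E P mem s i v = 0 := by
        by_contra h0; exact hm (Qb_of_wt hs h0 u (Wn.single he' hl))
      simp [a, b, h1, h2]
    rw [z, add_zero]
    refine (sum_le_card_nsmul _ (fun i => |b i - a i|) (l : ℝ) fun i _ => hab i).trans ?_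
    rw [nsmul_eq_mul]
    refine mul_le_mul_of_nonneg_right ?_ (by positivity)
    exact_mod_cast h.few s u _ hs hD (filter_subset _ _) fun i hi => (mem_filter.1 hi).2
  have hAB : |A - B| ≤ J * l := by
    rw [hA, hB, ← sum_sub_distrib]
    refine (abs_sum_le_sum_abs _ _).trans (le_trans (le_of_eq ?_) hs1)
    exact sum_congr rfl fun j _ => abs_sub_comm _ _
  have hA0 : 0 < A := by linarith
  have hB0 : 0 < B := by linarith
  have hb0 : ∀ j, 0 ≤ b j := fun j => by simp only [b]; positivity
  have key : ∀ i, |pw E P I mem s i v - pw E P I mem s i u| ≤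
      |b i - a i| / A + b i / B * (|A - B| / A) := by
    intro i
    have e : pw E P I mem s i v - pw E P I mem s i u =
        (b i - a i) / A + b i / B * ((A - B) / A) := by
      change b i / B - a i / A = _
      field_simp
      ring
    rw [e]
    refine (abs_add_le _ _).trans (le_of_eq ?_)
    rw [abs_div, abs_mul, abs_div, abs_div, abs_of_pos hA0, abs_of_pos hB0, abs_of_nonneg (hb0 i)]
  have hsum : ∑ i ∈ I s, |pw E P I mem s i v - pw E P I mem s i u| ≤ 2 * J * l / A := by
    refine (sum_le_sum fun j _ => key j).trans ?_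
    rw [sum_add_distrib, ← sum_div, ← sum_mul, ← sum_div, ← hB, div_self hB0.ne', one_mul,
      ← add_div]
    exact div_le_div_of_nonneg_right (by linarith) hA0.le
  have h0 : (0 : ℝ) ≤ 2 * J * l := by positivity
  calc _ ≤ 2 * J * l / A * P s := mul_le_mul_of_nonneg_right hsum (by linarith)
    _ ≤ 2 * J * l / A * A := mul_le_mul_of_nonneg_left hWu (div_nonneg h0 hA0.le)
    _ = 2 * J * l := by field_simp

theorem Cov.pw_top (h : Cov E Vx D J P I mem) (hD1 : 1 ≤ D) {u v : α} {l : ℕ} (he : E u v l)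
    (i : ι) : pw E P I mem D i v = pw E P I mem D i u := by
  classical
  have key : ∀ u v l, E u v l → ∀ i r, P D < r → Qb E mem D i u r → Qb E mem D i v r := by
    intro u v l he j r hr hc x hx
    exact hc x ((h.top _ _ _ (Wn.step he hx)).mono hr.le)
  have hw : ∀ i, wt E P mem D i v = wt E P mem D i u := by
    intro i
    unfold wt
    rw [if_neg (by omega), if_neg (by omega)]
    congr 1
    apply filter_congr
    intro r hr
    have := (mem_Ioc.1 hr).1
    exact ⟨key _ _ _ (h.symm _ _ _ he) i r this, key _ _ _ he i r this⟩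
  simp only [pw, wsum, hw]

end Weights

end Vale.Agent.P305V
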